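import Vale.Agent.P092.H644.Gr3
import Vale.Agent.P092.H100.Gr2
import Vale.Agent.P092.H789.Fr
import Vale.Agent.P092.H68.Span

/-!
P092, TEAM N, block [N-PGR] (helper644): the action of `PGL_n(k)` on the Grassmannians; the inverse
transpose on `SL`, `GL`, `PGL`; equivariance of `p1` (points) and of `hyp` (hyperplanes in
coordinates).
-/

set_option linter.all false

open Module Projectivization Topology
open scoped Matrix LinearAlgebra.Projectivization

namespace Vale.Agent.P092.H644.PGr

open Vale.Agent.P092.H100.Gr Vale.Agent.P092.H820 Vale.Agent.P092.H644.Gr3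
open Vale.Agent.P092.H789 (PG)

/-! ### The action -/

section act

variable {k : Type} [NontriviallyNormedField k] {n j : ℕ}

theorem center_smul_vec {g : GL (Fin n) k} (hg : g ∈ Subgroup.center (GL (Fin n) k)) :
    ∃ c : kˣ, ∀ v : Fin n → k, g • v = c • v := by
  obtain ⟨c, hc⟩ := Matrix.GeneralLinearGroup.mem_center_iff_val_mem_range_scalar.1 hg
  have h1 : ∀ v : Fin n → k, g • v = c • v := by
    intro v
    change g.1 *ᵥ v = _
    rw [← hc]
    funext i
    simp [Matrix.scalar_apply, Matrix.mulVec_diagonal]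
  by_cases hc0 : c = 0
  · refine ⟨1, fun v => ?_⟩
    have h2 : ∀ v : Fin n → k, v = 0 := by
      intro v
      have h3 := h1 (g⁻¹ • v)
      rw [smul_inv_smul, hc0, zero_smul] at h3
      exact h3
    rw [h2 v, smul_zero, smul_zero]
  · exact ⟨Units.mk0 c hc0, h1⟩

theorem center_smul (g : GL (Fin n) k) (hg : g ∈ Subgroup.center (GL (Fin n) k))
    (L : Gr k (Fin n) j) : g • L = L := by
  obtain ⟨c, hc⟩ := center_smul_vec (Subgroup.inv_mem _ hg)
  apply Subtype.ext
  ext x
  rw [mem_smul, hc]
  exact L.1.smul_mem_iff' c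

variable (k n j) in
/-- the action of `PGL_n(k)` as a homomorphism to permutations -/
def actHom : PG k n →* Equiv.Perm (Gr k (Fin n) j) :=
  QuotientGroup.lift _ (MulAction.toPermHom (GL (Fin n) k) (Gr k (Fin n) j)) fun g hg => by
    ext1 x
    exact center_smul g hg x

noncomputable instance actPGr : MulAction (PG k n) (Gr k (Fin n) j) :=
  MulAction.compHom _ (actHom k n j)

theorem mk_smul (g : GL (Fin n) k) (L : Gr k (Fin n) j) :
    (QuotientGroup.mk g : PG k n) • L = g • L := rfl

theorem can_smul (g : Matrix.SpecialLinearGroup (Fin n) k) (L : Gr k (Fin n) j) :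
    (QuotientGroup.mk (Matrix.SpecialLinearGroup.toGL g) : PG k n) • L = g • L := rfl

theorem can_smul_pt (g : Matrix.SpecialLinearGroup (Fin n) k) (x : ℙ k (Fin n → k)) :
    (QuotientGroup.mk (Matrix.SpecialLinearGroup.toGL g) : PG k n) • x = g • x := rfl

instance csPGr : ContinuousSMul (PG k n) (Gr k (Fin n) j) where
  continuous_smul := by
    have hq : IsOpenQuotientMap (Prod.map (QuotientGroup.mk : GL (Fin n) k → PG k n)
        (id : Gr k (Fin n) j → Gr k (Fin n) j)) :=
      QuotientGroup.isOpenQuotientMap_mk.prodMap IsOpenQuotientMap.id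
    rw [← hq.continuous_comp_iff]
    exact continuous_smul (M := GL (Fin n) k) (X := Gr k (Fin n) j)

theorem smul_le_pg {i : ℕ} {g : PG k n} {L : Gr k (Fin n) i} {M : Gr k (Fin n) j} :
    (g • L).1 ≤ (g • M).1 ↔ L.1 ≤ M.1 := by
  induction g using QuotientGroup.induction_on with | H g => ?_
  rw [mk_smul, mk_smul]
  exact smul_le

end act

/-! ### Inverse transpose -/

section tau

variable (k : Type) [Field k] (n : ℕ)

/-- inverse transpose on `GL` -/
def tauG : GL (Fin n) k →* GL (Fin n) k where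
  toFun g := ⟨(g⁻¹).1.transpose, g.1.transpose,
    by rw [← Matrix.transpose_mul, ← Units.val_mul, mul_inv_cancel, Units.val_one,
      Matrix.transpose_one],
    by rw [← Matrix.transpose_mul, ← Units.val_mul, inv_mul_cancel, Units.val_one,
      Matrix.transpose_one]⟩
  map_one' := by
    apply Units.ext
    simp
  map_mul' g h := by
    apply Units.ext
    change ((g * h)⁻¹).1.transpose = (g⁻¹).1.transpose * (h⁻¹).1.transpose
    rw [mul_inv_rev, Units.val_mul, Matrix.transpose_mul]

/-- inverse transpose on `SL` -/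
def tauS : Matrix.SpecialLinearGroup (Fin n) k →* Matrix.SpecialLinearGroup (Fin n) k where
  toFun g := ⟨(g⁻¹).1.transpose, by rw [Matrix.det_transpose]; exact (g⁻¹).2⟩
  map_one' := by
    apply Subtype.ext
    simp
  map_mul' g h := by
    apply Subtype.ext
    change ((g * h)⁻¹).1.transpose = (g⁻¹).1.transpose * (h⁻¹).1.transpose
    rw [mul_inv_rev, Matrix.SpecialLinearGroup.coe_mul, Matrix.transpose_mul]

variable {k n}

theorem tauG_val (g : GL (Fin n) k) : (tauG k n g).1 = (g⁻¹).1.transpose := rfl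

theorem tauS_val (g : Matrix.SpecialLinearGroup (Fin n) k) :
    (tauS k n g).1 = (g⁻¹).1.transpose := rfl

theorem tauG_tauG (g : GL (Fin n) k) : tauG k n (tauG k n g) = g := by
  apply Units.ext
  rw [tauG_val, ← map_inv, tauG_val, inv_inv, Matrix.transpose_transpose]

theorem tauS_tauS (g : Matrix.SpecialLinearGroup (Fin n) k) : tauS k n (tauS k n g) = g := by
  apply Subtype.ext
  rw [tauS_val, ← map_inv, tauS_val, inv_inv, Matrix.transpose_transpose]

theorem tauG_center {g : GL (Fin n) k} (hg : g ∈ Subgroup.center (GL (Fin n) k)) :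
    tauG k n g ∈ Subgroup.center (GL (Fin n) k) := by
  rw [Subgroup.mem_center_iff] at hg ⊢
  intro h
  have h1 := congrArg (tauG k n) (hg (tauG k n h))
  rwa [map_mul, map_mul, tauG_tauG] at h1

theorem pair_gl (g : GL (Fin n) k) (v w : Fin n → k) :
    (tauG k n g • v) ⬝ᵥ (g • w) = v ⬝ᵥ w := by
  change ((g⁻¹).1.transpose *ᵥ v) ⬝ᵥ (g.1 *ᵥ w) = v ⬝ᵥ w
  rw [Matrix.mulVec_transpose, ← Matrix.dotProduct_mulVec, Matrix.mulVec_mulVec,
    ← Units.val_mul, inv_mul_cancel, Units.val_one, Matrix.one_mulVec]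

theorem pair_sl {g g' : Matrix.SpecialLinearGroup (Fin n) k} (h : g'.1 = (g⁻¹).1.transpose)
    (v w : Fin n → k) : (g' • v) ⬝ᵥ (g • w) = v ⬝ᵥ w := by
  change (g'.1 *ᵥ v) ⬝ᵥ (g.1 *ᵥ w) = v ⬝ᵥ w
  rw [h, Matrix.mulVec_transpose, ← Matrix.dotProduct_mulVec, Matrix.mulVec_mulVec,
    ← Matrix.SpecialLinearGroup.coe_mul, inv_mul_cancel, Matrix.SpecialLinearGroup.coe_one,
    Matrix.one_mulVec]

theorem toGL_tau {g g' : Matrix.SpecialLinearGroup (Fin n) k} (h : g'.1 = (g⁻¹).1.transpose) :
    Matrix.SpecialLinearGroup.toGL g' = tauG k n (Matrix.SpecialLinearGroup.toGL g) := by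
  apply Units.ext
  rw [tauG_val, ← map_inv]
  exact h

end tau

section tauP

variable (k : Type) [NontriviallyNormedField k] (n : ℕ)

theorem tauG_cont : Continuous (tauG k n) := by
  rw [Units.continuous_iff]
  constructor
  · exact (Units.continuous_val.comp continuous_inv).matrix_transpose
  · exact Units.continuous_val.matrix_transpose

/-- inverse transpose on `PGL` -/
def tauP : PG k n →* PG k n :=
  QuotientGroup.map _ _ (tauG k n) fun _ hg => tauG_center hg

variable {k n}

theorem tauP_mk (g : GL (Fin n) k) :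
    tauP k n (QuotientGroup.mk g) = QuotientGroup.mk (tauG k n g) := rfl

theorem tauP_tauP (g : PG k n) : tauP k n (tauP k n g) = g := by
  induction g using QuotientGroup.induction_on with | H g => ?_
  rw [tauP_mk, tauP_mk, tauG_tauG]

theorem tauP_can {g g' : Matrix.SpecialLinearGroup (Fin n) k} (h : g'.1 = (g⁻¹).1.transpose) :
    (QuotientGroup.mk (Matrix.SpecialLinearGroup.toGL g') : PG k n) =
      tauP k n (QuotientGroup.mk (Matrix.SpecialLinearGroup.toGL g)) := by
  rw [tauP_mk, toGL_tau h]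

theorem tauP_cont : Continuous (tauP k n) := by
  rw [← QuotientGroup.isOpenQuotientMap_mk.continuous_comp_iff]
  exact QuotientGroup.continuous_mk.comp (tauG_cont k n)

end tauP

/-! ### Equivariance -/

section eqv

variable {k : Type} [NontriviallyNormedField k] {m n : ℕ}

theorem p1_smul_gr {G : Type*} [Group G] [DistribMulAction G (Fin n → k)]
    [SMulCommClass G k (Fin n → k)] (g : G) (x : ℙ k (Fin n → k)) : p1 (g • x) = g • p1 x :=
  Subtype.ext (p1_smul g x)

theorem hyp_smul_gr {G G' : Type*} [Group G] [DistribMulAction G (Fin (m + 1) → k)]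
    [SMulCommClass G k (Fin (m + 1) → k)] [Group G'] [DistribMulAction G' (Fin (m + 1) → k)]
    [SMulCommClass G' k (Fin (m + 1) → k)] {g : G} {g' : G'}
    (h : ∀ v w : Fin (m + 1) → k, (g' • v) ⬝ᵥ (g • w) = v ⬝ᵥ w) (x : ℙ k (Fin (m + 1) → k)) :
    hyp (g' • x) = g • hyp x := by
  induction x using Projectivization.ind with | h v hv => ?_
  have h1 : g' • mk k v hv = mk k (g' • v) ((smul_ne_zero_iff_ne g').2 hv) := rfl
  apply Subtype.ext
  ext w
  rw [mem_smul, h1, mem_hyp, mem_hyp, ← h v (g⁻¹ • w), smul_inv_smul]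

/-- points, `PGL` -/
theorem p1_smul_pg (g : PG k n) (x : ℙ k (Fin n → k)) : p1 (g • x) = g • p1 x := by
  induction g using QuotientGroup.induction_on with | H g => ?_
  exact p1_smul_gr g x

/-- hyperplanes, `SL`, for every form of the inverse transpose -/
theorem hyp_smul_sl {g g' : Matrix.SpecialLinearGroup (Fin (m + 1)) k}
    (h : g'.1 = (g⁻¹).1.transpose) (x : ℙ k (Fin (m + 1) → k)) : hyp (g' • x) = g • hyp x :=
  hyp_smul_gr (pair_sl h) x

/-- hyperplanes, `GL` -/
theorem hyp_smul_gl (g : GL (Fin (m + 1)) k) (x : ℙ k (Fin (m + 1) → k)) :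
    hyp (tauG k (m + 1) g • x) = g • hyp x :=
  hyp_smul_gr (pair_gl g) x

/-- hyperplanes, `PGL` -/
theorem hyp_smul_pg (g : PG k (m + 1)) (x : ℙ k (Fin (m + 1) → k)) :
    hyp (tauP k (m + 1) g • x) = g • hyp x := by
  induction g using QuotientGroup.induction_on with | H g => ?_
  exact hyp_smul_gl g x

end eqv

/-! ### The family `YG` -/

section yg

open Vale.Agent.P092.H68.Gras

variable {k : Type} [NontriviallyNormedField k] {n : ℕ}

noncomputable instance actYGP (d : ℕ) : MulAction (PG k n) (YG k n d) :=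
  inferInstanceAs (MulAction (PG k n) (Gr k (Fin n) (min d n)))

theorem can_smul_YG [ProperSpace k] (g : GL (Fin n) k) {d : ℕ} (L : YG k n d) :
    ((QuotientGroup.mk g : PG k n) • L : YG k n d).1 = (g • (show Gr k (Fin n) (min d n) from L)).1 :=
  rfl

/-- `PGL` preserves incidence -/
theorem IG_pg (g : PG k n) {i j : ℕ} {L : YG k n i} {M : YG k n j} (h : IG i j L M) :
    IG i j (g • L) (g • M) :=
  smul_le_pg.2 h

variable [ProperSpace k]

instance csYGP (d : ℕ) : ContinuousSMul (PG k n) (YG k n d) :=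
  inferInstanceAs (ContinuousSMul (PG k n) (Gr k (Fin n) (min d n)))

end yg

end Vale.Agent.P092.H644.PGr
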