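import Vale.Agent.P092.H100.Gr1

/-!
P092, TEAM N, block [N-GR], part 3 (helper644): points and hyperplanes as Grassmannians, closed
incidence in coordinates, chains of subspaces, the join of a point and a subspace.
-/

set_option linter.all false

open TopologicalSpace Topology Module Set Projectivization
open scoped Matrix LinearAlgebra.Projectivization

namespace Vale.Agent.P092.H644.Gr3

open Vale.Agent.P092.H100.Gr Vale.Agent.P092.H820

section alg

variable {k : Type*} [NontriviallyNormedField k] {ι : Type*} [Fintype ι]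

/-- a point as a subspace -/
def p1 (x : ℙ k (ι → k)) : Gr k ι 1 := ⟨x.submodule, x.finrank_submodule⟩

theorem p1_inj : Function.Injective (p1 : ℙ k (ι → k) → Gr k ι 1) := fun x y h =>
  submodule_injective (congrArg Subtype.val h)

theorem p1_surj : Function.Surjective (p1 : ℙ k (ι → k) → Gr k ι 1) := fun L =>
  ⟨mk'' L.1 L.2, Subtype.ext (submodule_mk'' L.1 L.2)⟩

theorem p1_mk (v : ι → k) (hv : v ≠ 0) : (p1 (mk k v hv)).1 = Submodule.span k {v} :=
  submodule_mk v hv

theorem mem_p1 {x : ℙ k (ι → k)} {L : Submodule k (ι → k)} : (p1 x).1 ≤ L ↔ x.rep ∈ L := by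
  change x.submodule ≤ L ↔ _
  rw [submodule_eq, Submodule.span_singleton_le_iff_mem]

theorem p1_le_mk {v : ι → k} {hv : v ≠ 0} {L : Submodule k (ι → k)} :
    (p1 (mk k v hv)).1 ≤ L ↔ v ∈ L := by
  rw [p1_mk, Submodule.span_singleton_le_iff_mem]

/-- the functional `v ↦ x ⬝ᵥ v` -/
def fl (x : ι → k) : (ι → k) →ₗ[k] k where
  toFun v := x ⬝ᵥ v
  map_add' u v := dotProduct_add x u v
  map_smul' c v := dotProduct_smul c x v

@[simp] theorem fl_apply (x v : ι → k) : fl x v = x ⬝ᵥ v := rfl

theorem fl_ne {x : ι → k} (hx : x ≠ 0) : fl x ≠ 0 := by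
  classical
  intro h
  apply hx
  funext i
  have := LinearMap.congr_fun h (Pi.single i 1)
  simpa using this

theorem exists_fl (f : (ι → k) →ₗ[k] k) : ∃ x, f = fl x := by
  classical
  refine ⟨fun i => f (Pi.single i 1), LinearMap.ext fun v => ?_⟩
  rw [LinearMap.pi_apply_eq_sum_univ f v]
  simp only [fl_apply, dotProduct, smul_eq_mul]
  refine Finset.sum_congr rfl fun i _ => ?_
  rw [mul_comm]
  congr 2
  funext j
  simp [Pi.single_apply, eq_comm]

theorem ker_finrank {x : ι → k} (hx : x ≠ 0) :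
    finrank k (LinearMap.ker (fl x)) + 1 = Fintype.card ι := by
  have h1 := LinearMap.finrank_range_add_finrank_ker (fl x)
  have h2 : finrank k (LinearMap.range (fl x)) = 1 := by
    have : LinearMap.range (fl x) = ⊤ :=
      LinearMap.range_eq_top.2 (LinearMap.surjective (fl_ne hx))
    rw [this, finrank_top, finrank_self]
  rw [h2, finrank_fintype_fun_eq_card] at h1
  omega

theorem ker_eq_iff {x y : ι → k} (hx : x ≠ 0) (hy : y ≠ 0) :
    LinearMap.ker (fl x) ≤ LinearMap.ker (fl y) ↔ wd x y = 0 := by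
  classical
  constructor
  · intro h
    ext ⟨i, j⟩
    have h1 : x j • Pi.single i 1 - x i • Pi.single j 1 ∈ LinearMap.ker (fl x) := by
      rw [LinearMap.mem_ker, fl_apply, dotProduct_sub, dotProduct_smul, dotProduct_smul,
        dotProduct_single, dotProduct_single]
      simp [mul_comm]
    have h2 := h h1
    rw [LinearMap.mem_ker, fl_apply, dotProduct_sub, dotProduct_smul, dotProduct_smul,
      dotProduct_single, dotProduct_single] at h2
    simp only [smul_eq_mul, mul_one] at h2
    simp only [wd, Pi.zero_apply]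
    linear_combination -h2
  · intro h v hv
    obtain ⟨i, hi⟩ : ∃ i, x i ≠ 0 := by
      by_contra hc
      push Not at hc
      exact hx (funext hc)
    rw [LinearMap.mem_ker, fl_apply] at hv ⊢
    have h1 : ∀ j, x i * y j = x j * y i := fun j => by
      have := congrFun h (i, j)
      simpa [wd, sub_eq_zero] using this
    have h2 : x i * (y ⬝ᵥ v) = y i * (x ⬝ᵥ v) := by
      simp only [dotProduct, Finset.mul_sum]
      refine Finset.sum_congr rfl fun j _ => ?_
      rw [← mul_assoc, h1 j]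
      ring
    rw [hv, mul_zero] at h2
    exact (mul_eq_zero.1 h2).resolve_left hi

variable {m : ℕ}

/-- the hyperplane with the coordinates `x` -/
def hypF (x : {v : ι → k // v ≠ 0}) : Submodule k (ι → k) := LinearMap.ker (fl x.1)

theorem hypF_eq (x y : {v : ι → k // v ≠ 0}) : hypF x = hypF y ↔ pj k ι x = pj k ι y := by
  rw [pj_eq_iff]
  constructor
  · intro h
    exact (ker_eq_iff x.2 y.2).1 (le_of_eq h)
  · intro h
    have h' : wd y.1 x.1 = 0 := by
      ext ⟨i, j⟩
      have := congrFun h (i, j)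
      simp only [wd, Pi.zero_apply] at this ⊢
      linear_combination -this
    exact le_antisymm ((ker_eq_iff x.2 y.2).2 h) ((ker_eq_iff y.2 x.2).2 h')

/-- The hyperplane with the coordinates `x`. -/
noncomputable def hyp (x : ℙ k (Fin (m + 1) → k)) : Gr k (Fin (m + 1)) m :=
  ⟨hypF ⟨x.rep, x.rep_nonzero⟩, by
    have := ker_finrank x.rep_nonzero
    rw [Fintype.card_fin] at this
    change finrank k (LinearMap.ker (fl x.rep)) = m
    omega⟩

theorem hyp_mk (x : Fin (m + 1) → k) (hx : x ≠ 0) :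
    (hyp (mk k x hx)).1 = LinearMap.ker (fl x) := by
  have := (hypF_eq ⟨(mk k x hx).rep, rep_nonzero _⟩ ⟨x, hx⟩).2 (mk_rep _)
  exact this

theorem mem_hyp {x : Fin (m + 1) → k} {hx : x ≠ 0} {v : Fin (m + 1) → k} :
    v ∈ (hyp (mk k x hx)).1 ↔ x ⬝ᵥ v = 0 := by
  rw [hyp_mk, LinearMap.mem_ker, fl_apply]

theorem hyp_inj : Function.Injective (hyp : ℙ k (Fin (m + 1) → k) → Gr k (Fin (m + 1)) m) := by
  intro x y h
  have := (hypF_eq ⟨x.rep, x.rep_nonzero⟩ ⟨y.rep, y.rep_nonzero⟩).1 (congrArg Subtype.val h)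
  rw [← mk_rep x, ← mk_rep y]
  exact this

theorem hyp_surj : Function.Surjective (hyp : ℙ k (Fin (m + 1) → k) → Gr k (Fin (m + 1)) m) := by
  intro L
  have hlt : L.1 < ⊤ := by
    refine lt_top_iff_ne_top.2 fun h => ?_
    have h1 := L.2
    rw [h, finrank_top, finrank_fintype_fun_eq_card, Fintype.card_fin] at h1
    omega
  obtain ⟨f, hf, hle⟩ := Submodule.exists_le_ker_of_lt_top L.1 hlt
  obtain ⟨x, rfl⟩ := exists_fl f
  have hx : x ≠ 0 := by
    rintro rfl
    apply hf
    ext v
    simp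
  refine ⟨mk k x hx, ?_⟩
  symm
  refine Subtype.ext (Submodule.eq_of_le_of_finrank_eq ?_ ?_)
  · rw [hyp_mk]
    exact hle
  · rw [L.2, (hyp _).2]

/-- a point on a hyperplane, in coordinates -/
theorem p1_le_hyp {x y : ℙ k (Fin (m + 1) → k)} : (p1 x).1 ≤ (hyp y).1 ↔ orthogonal x y := by
  induction x using Projectivization.ind with | h v hv => ?_
  induction y using Projectivization.ind with | h w hw => ?_
  rw [p1_le_mk, mem_hyp, orthogonal_mk hv hw, dotProduct_comm]

/-! ### Equivariance -/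

theorem p1_smul {G : Type*} [Group G] [DistribMulAction G (ι → k)] [SMulCommClass G k (ι → k)]
    (g : G) (x : ℙ k (ι → k)) :
    (p1 (g • x)).1 = (p1 x).1.map (DistribSMul.toLinearMap k (ι → k) g) := by
  induction x using Projectivization.ind with | h v hv => ?_
  have : g • mk k v hv = mk k (g • v) ((smul_ne_zero_iff_ne g).2 hv) := rfl
  rw [this, p1_mk, p1_mk, Submodule.map_span, image_singleton]
  rfl

end alg

section top

variable {k : Type*} [NontriviallyNormedField k] [ProperSpace k] {ι : Type*} [Fintype ι]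
  {i j m : ℕ}

omit [ProperSpace k] in
theorem p1_cont : Continuous (p1 : ℙ k (ι → k) → Gr k ι 1) := by
  have hq : IsQuotientMap (pj k ι) := isQuotientMap_quot_mk
  rw [hq.continuous_iff]
  have hli : ∀ v : {v : ι → k // v ≠ 0}, LinearIndependent k (fun _ : Fin 1 => v.1) := by
    intro v
    rw [linearIndependent_unique_iff]
    exact v.2
  have e : (p1 ∘ pj k ι : {v : ι → k // v ≠ 0} → Gr k ι 1) =
      sp ∘ fun v => (⟨fun _ => v.1, hli v⟩ : Fr k ι 1) := by
    funext v
    refine Subtype.ext ?_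
    change (mk k v.1 v.2).submodule = Submodule.span k (range fun _ : Fin 1 => v.1)
    rw [submodule_mk, range_const]
  rw [e]
  refine sp_cont.comp (Continuous.subtype_mk ?_ _)
  exact continuous_pi fun _ => continuous_subtype_val

/-- points are the one dimensional subspaces -/
noncomputable def p1H : ℙ k (ι → k) ≃ₜ Gr k ι 1 :=
  Continuous.homeoOfEquivCompactToT2 (f := Equiv.ofBijective p1 ⟨p1_inj, p1_surj⟩) p1_cont

@[simp] theorem p1H_apply (x : ℙ k (ι → k)) : p1H x = p1 x := rfl

omit [ProperSpace k] in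
/-- points in subspaces: closed -/
theorem p1_le_closed : IsClosed {q : ℙ k (ι → k) × Gr k ι j | (p1 q.1).1 ≤ q.2.1} := by
  have : {q : ℙ k (ι → k) × Gr k ι j | (p1 q.1).1 ≤ q.2.1} =
      Prod.map p1 id ⁻¹' incG k ι 1 j := rfl
  rw [this]
  exact incG_closed.preimage (p1_cont.prodMap continuous_id)

omit [ProperSpace k] in
/-- subspaces in hyperplanes, coordinates of the hyperplane: closed -/
theorem le_hyp_closed :
    IsClosed {q : Gr k (Fin (m + 1)) j × ℙ k (Fin (m + 1) → k) | q.1.1 ≤ (hyp q.2).1} := by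
  have hq : IsOpenQuotientMap (Prod.map (sp (k := k) (ι := Fin (m + 1)) (j := j))
      (pj k (Fin (m + 1)))) := sp_oq.prodMap pj_oq
  rw [← hq.isQuotientMap.isClosed_preimage]
  have e : Prod.map (sp (k := k) (ι := Fin (m + 1)) (j := j)) (pj k (Fin (m + 1))) ⁻¹'
      {q : Gr k (Fin (m + 1)) j × ℙ k (Fin (m + 1) → k) | q.1.1 ≤ (hyp q.2).1} =
      ⋂ b, {p : Fr k (Fin (m + 1)) j × {v : Fin (m + 1) → k // v ≠ 0} |
        p.2.1 ⬝ᵥ p.1.1 b = 0} := by
    ext p
    simp only [mem_iInter]
    change Submodule.span k (range p.1.1) ≤ (hyp (mk k p.2.1 p.2.2)).1 ↔ _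
    rw [Submodule.span_le, range_subset_iff]
    exact forall_congr' fun b => mem_hyp
  rw [e]
  refine isClosed_iInter fun b => isClosed_eq ?_ continuous_const
  exact (continuous_subtype_val.comp continuous_snd).dotProduct
    ((continuous_apply b).comp (fr_val_cont.comp continuous_fst))

theorem hyp_cont : Continuous (hyp : ℙ k (Fin (m + 1) → k) → Gr k (Fin (m + 1)) m) := by
  refine continuous_iff_isClosed.2 fun C hC => ?_
  have h1 : IsClosed {q : Gr k (Fin (m + 1)) m × ℙ k (Fin (m + 1) → k) |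
      q.1.1 ≤ (hyp q.2).1 ∧ q.1 ∈ C} :=
    le_hyp_closed.inter (hC.preimage continuous_fst)
  have e : hyp ⁻¹' C = Prod.snd '' {q : Gr k (Fin (m + 1)) m × ℙ k (Fin (m + 1) → k) |
      q.1.1 ≤ (hyp q.2).1 ∧ q.1 ∈ C} := by
    ext x
    constructor
    · intro hx
      exact ⟨(hyp x, x), ⟨le_rfl, hx⟩, rfl⟩
    · rintro ⟨⟨L, y⟩, ⟨h1, h2⟩, rfl⟩
      have : L = hyp y := eq_of_le h1
      change hyp y ∈ C
      rw [← this]
      exact h2
  rw [e]
  exact isClosedMap_snd_of_compactSpace _ h1

/-- hyperplanes, by coordinates -/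
noncomputable def hypH : ℙ k (Fin (m + 1) → k) ≃ₜ Gr k (Fin (m + 1)) m :=
  Continuous.homeoOfEquivCompactToT2 (f := Equiv.ofBijective hyp ⟨hyp_inj, hyp_surj⟩) hyp_cont

@[simp] theorem hypH_apply (x : ℙ k (Fin (m + 1) → k)) : hypH x = hyp x := rfl

omit [ProperSpace k] in
/-- incidence of points and hyperplanes -/
theorem orth_closed : IsClosed {q : ℙ k (Fin (m + 1) → k) × ℙ k (Fin (m + 1) → k) |
    orthogonal q.1 q.2} := by
  have hq : IsOpenQuotientMap (Prod.map (pj k (Fin (m + 1))) (pj k (Fin (m + 1)))) :=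
    pj_oq.prodMap pj_oq
  rw [← hq.isQuotientMap.isClosed_preimage]
  have : Prod.map (pj k (Fin (m + 1))) (pj k (Fin (m + 1))) ⁻¹'
      {q : ℙ k (Fin (m + 1) → k) × ℙ k (Fin (m + 1) → k) | orthogonal q.1 q.2} =
      (fun p : {v : Fin (m + 1) → k // v ≠ 0} × {v : Fin (m + 1) → k // v ≠ 0} =>
        p.1.1 ⬝ᵥ p.2.1) ⁻¹' {0} := by
    ext p
    rfl
  rw [this]
  refine isClosed_singleton.preimage ?_
  exact (continuous_subtype_val.comp continuous_fst).dotProduct
    (continuous_subtype_val.comp continuous_snd)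

end top

end Vale.Agent.P092.H644.Gr3
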