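import Vale.Agent.P092.H644.Gr3
import Vale.Agent.P092.H100.Gr2
import Vale.Agent.P092.H289.Adp
import Vale.Agent.P092.H68.Span

/-!
P092, TEAM N, block [N-SGEO] (helper644): the geometry `H618.SGeo` of the source: subspaces of
`k^(m+1)` with the action of `SL_(m+1)(k)`.
-/

set_option linter.all false

open Module Set Projectivization
open scoped Matrix LinearAlgebra.Projectivization Pointwise

namespace Vale.Agent.P092.H644.SG

open Vale.Agent.P092.H100.Gr Vale.Agent.P092.H820 Vale.Agent.P092.H289 Vale.Agent.P092.H644.Gr3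

section chain

variable {k : Type*} [Field k] {ι : Type*} [Fintype ι] {j l : ℕ}

/-- chains of subspaces, with a common subspace of dimension `j + 1` above -/
theorem con (hl : l = j + 1) (X X' : Gr k ι j) :
    Relation.ReflTransGen (fun A B : Gr k ι j => ∃ Z : Gr k ι l, A.1 ≤ Z.1 ∧ B.1 ≤ Z.1)
      X X' := by
  subst hl
  let f : Submodule k (ι → k) → Prop := fun Z => ∀ h : finrank k Z = j,
    Relation.ReflTransGen (fun A B : Gr k ι j => ∃ Z : Gr k ι (j + 1), A.1 ≤ Z.1 ∧ B.1 ≤ Z.1)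
      X ⟨Z, h⟩
  have h1 : f X.1 = f X'.1 := by
    refine const_of_adj f j (fun A B hA hB hAB => ?_) X.2 X'.2
    have hs : ∃ Z : Gr k ι (j + 1), A ≤ Z.1 ∧ B ≤ Z.1 := ⟨⟨A ⊔ B, hAB⟩, le_sup_left, le_sup_right⟩
    have hs' : ∃ Z : Gr k ι (j + 1), B ≤ Z.1 ∧ A ≤ Z.1 := ⟨⟨A ⊔ B, hAB⟩, le_sup_right, le_sup_left⟩
    exact propext ⟨fun h hB' => (h hA).tail hs, fun h hA' => (h hB).tail hs'⟩
  have h2 : f X.1 := fun _ => Relation.ReflTransGen.refl
  rw [h1] at h2
  exact h2 X'.2

/-- chains of subspaces, with a common subspace of dimension `j` below -/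
theorem con2 (hl : l = j + 1) (X X' : Gr k ι l) :
    Relation.ReflTransGen (fun A B : Gr k ι l => ∃ Z : Gr k ι j, Z.1 ≤ A.1 ∧ Z.1 ≤ B.1)
      X X' := by
  subst hl
  let f : Submodule k (ι → k) → Prop := fun Z => ∀ h : finrank k Z = j + 1,
    Relation.ReflTransGen (fun A B : Gr k ι (j + 1) => ∃ Z : Gr k ι j, Z.1 ≤ A.1 ∧ Z.1 ≤ B.1)
      X ⟨Z, h⟩
  have h1 : f X.1 = f X'.1 := by
    refine const_of_adj f (j + 1) (fun A B hA hB hAB => ?_) X.2 X'.2
    have hd : finrank k ↥(A ⊓ B) = j := by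
      have := Submodule.finrank_sup_add_finrank_inf_eq A B
      omega
    have hs : ∃ Z : Gr k ι j, Z.1 ≤ A ∧ Z.1 ≤ B := ⟨⟨A ⊓ B, hd⟩, inf_le_left, inf_le_right⟩
    have hs' : ∃ Z : Gr k ι j, Z.1 ≤ B ∧ Z.1 ≤ A := ⟨⟨A ⊓ B, hd⟩, inf_le_right, inf_le_left⟩
    exact propext ⟨fun h hB' => (h hA).tail hs, fun h hA' => (h hB).tail hs'⟩
  have h2 : f X.1 := fun _ => Relation.ReflTransGen.refl
  rw [h1] at h2
  exact h2 X'.2

/-- every nonzero subspace contains a point -/
theorem pnt (hj : 1 ≤ j) (X : Gr k ι j) : ∃ c : Gr k ι 1, c.1 ≤ X.1 := by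
  have hne : X.1 ≠ ⊥ := by
    intro h
    have := X.2
    rw [h, finrank_bot] at this
    omega
  obtain ⟨v, hv, h0⟩ := Submodule.exists_mem_ne_zero_of_ne_bot hne
  exact ⟨⟨k ∙ v, finrank_span_singleton h0⟩, (Submodule.span_singleton_le_iff_mem _ _).2 hv⟩

/-- every subspace is contained in a subspace of a given larger dimension -/
theorem exists_ge {i : ℕ} (hij : i ≤ j) (hj : j ≤ Fintype.card ι) (X : Gr k ι i) :
    ∃ Z : Gr k ι j, X.1 ≤ Z.1 := by
  obtain ⟨d, rfl⟩ := Nat.exists_eq_add_of_le hij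
  clear hij
  induction d with
  | zero => exact ⟨X, le_rfl⟩
  | succ d ih =>
    obtain ⟨Z, hZ⟩ := ih (by omega)
    have hlt : Z.1 < ⊤ := by
      refine lt_top_iff_ne_top.2 fun h => ?_
      have h1 := Z.2
      rw [h, finrank_top, finrank_fintype_fun_eq_card] at h1
      omega
    obtain ⟨v, -, hv⟩ := SetLike.exists_of_lt hlt
    have hv0 : v ≠ 0 := fun h => hv (h ▸ Z.1.zero_mem)
    refine ⟨⟨Z.1 ⊔ k ∙ v, ?_⟩, hZ.trans le_sup_left⟩
    have h3 := Submodule.finrank_sup_add_finrank_inf_eq Z.1 (k ∙ v)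
    have h4 : Z.1 ⊓ (k ∙ v) = ⊥ := by
      rw [eq_bot_iff]
      rintro y ⟨hy, hy'⟩
      obtain ⟨c, rfl⟩ := Submodule.mem_span_singleton.1 hy'
      by_cases hc : c = 0
      · simp [hc]
      · exact absurd ((Submodule.smul_mem_iff Z.1 hc).1 hy) hv
    rw [h4, finrank_bot, add_zero, finrank_span_singleton hv0, Z.2] at h3
    exact h3

end chain

section inst

open Vale.Agent.P092.H68.Gras

variable (k : Type) [NontriviallyNormedField k] [ProperSpace k] (n : ℕ)

instance actYG {G : Type*} [Group G] [DistribMulAction G (Fin n → k)]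
    [SMulCommClass G k (Fin n → k)] (d : ℕ) : MulAction G (YG k n d) :=
  inferInstanceAs (MulAction G (Gr k (Fin n) (min d n)))

instance csYG {G : Type*} [TopologicalSpace G] [Group G] [DistribMulAction G (Fin n → k)]
    [SMulCommClass G k (Fin n → k)] [ContinuousSMul G (Fin n → k)] (d : ℕ) :
    ContinuousSMul G (YG k n d) :=
  inferInstanceAs (ContinuousSMul G (Gr k (Fin n) (min d n)))

variable {k n}

theorem smul_val {G : Type*} [Group G] [DistribMulAction G (Fin n → k)]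
    [SMulCommClass G k (Fin n → k)] {d : ℕ} (g : G) (L : YG k n d) : (g • L).1 = g • L.1 := rfl

theorem eq_iff {d : ℕ} {L L' : YG k n d} : L = L' ↔ L.1 = L'.1 :=
  ⟨fun h => congrArg Subtype.val h, fun h => Subtype.ext h⟩

/-- **[N-SGEO].** -/
theorem sgeo (N : ℕ) (hN : N + 1 = n) :
    H618.SGeo N (YG k n) IG (Matrix.SpecialLinearGroup (Fin n) k) where
  refl i X X' := ⟨fun h => eq_of_le h, fun h => le_of_eq (congrArg Subtype.val h)⟩
  trans i j l X Y Z h h' := le_trans (α := Submodule k (Fin n → k)) h h'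
  pnt j h1 h2 X := by
    obtain ⟨c, hc⟩ := pnt (k := k) (ι := Fin n) (j := min j n) (by omega) X
    have h : min 1 n = 1 := by omega
    exact ⟨⟨c.1, c.2.trans h.symm⟩, hc⟩
  hyp j h1 h2 X :=
    exists_ge (k := k) (ι := Fin n) (i := min j n) (j := min N n) (by omega)
      (by rw [Fintype.card_fin]; omega) X
  act g i j X X' h := smul_le.2 h
  tra j h1 h2 X X' := by
    obtain ⟨g, hg⟩ := exists_sl (X := X.1) (X' := X'.1) (X.2.trans X'.2.symm)
    exact ⟨g, Subtype.ext hg⟩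
  con j h1 h2 X X' := con (k := k) (ι := Fin n) (j := min j n) (l := min (j + 1) n) (by omega) X X'
  con2 j h1 h2 P P' :=
    con2 (k := k) (ι := Fin n) (j := min j n) (l := min (j + 1) n) (by omega) P P'
  tra2 j h1 h2 P Y P' Y' hne hne' hX hX' := by
    have key : ∀ P Y : YG k n (j + 1), P ≠ Y → (∃ X : YG k n j, IG j (j + 1) X P ∧
        IG j (j + 1) X Y) → finrank k ↥(P.1 ⊓ Y.1) = j := by
      rintro P Y hne ⟨X, hXP, hXY⟩
      have h3 : finrank k X.1 = min j n := X.2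
      have h4 : finrank k P.1 = min (j + 1) n := P.2
      have h5 : finrank k X.1 ≤ finrank k ↥(P.1 ⊓ Y.1) :=
        Submodule.finrank_mono (le_inf hXP hXY)
      have h6 : P.1 ⊓ Y.1 < P.1 := by
        refine lt_of_le_of_ne inf_le_left fun he => hne ?_
        exact eq_of_le (k := k) (ι := Fin n) (inf_eq_left.1 he)
      have h7 := Submodule.finrank_lt_finrank_of_lt h6
      omega
    obtain ⟨g, hg, hg'⟩ := exists_sl_pair (X := P.1) (X' := P'.1) (Y := Y.1) (Y' := Y'.1)
      (P.2.trans P'.2.symm) (Y.2.trans Y'.2.symm) ((key P Y hne hX).trans (key P' Y' hne' hX').symm)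
    exact ⟨g, Subtype.ext hg, Subtype.ext hg'⟩

variable {Γ : Type} [Group Γ]

/-- the action of `Γ` through `q` -/
@[reducible] def actQ (q : Γ →* Matrix.SpecialLinearGroup (Fin n) k) (d : ℕ) :
    MulAction Γ (YG k n d) := MulAction.compHom _ q

theorem actQ_smul (q : Γ →* Matrix.SpecialLinearGroup (Fin n) k) (d : ℕ) (γ : Γ)
    (L : YG k n d) : (letI := actQ q d; γ • L) = q γ • L := rfl

/-- `Γ` acts by homeomorphisms -/
theorem ccsQ (q : Γ →* Matrix.SpecialLinearGroup (Fin n) k) (d : ℕ) :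
    letI := actQ q d
    ContinuousConstSMul Γ (YG k n d) := by
  letI := actQ q d
  exact ⟨fun γ => continuous_const_smul (q γ)⟩

/-- field `gI` of `RkData` -/
theorem gI (q : Γ →* Matrix.SpecialLinearGroup (Fin n) k) (γ : Γ) (i j : ℕ) (L : YG k n i)
    (L' : YG k n j) (h : IG i j L L') :
    letI := actQ q i
    letI := actQ q j
    IG i j (γ • L) (γ • L') := smul_le.2 h

end inst

end Vale.Agent.P092.H644.SG
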