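import Vale.Agent.P092.H644.RkG
import Vale.Agent.P092.H411.NRk
import Vale.Agent.P092.SN.Blocks

/-!
P092, TEAM N, block [N-RKI], part 2 (helper644): the data of the rank count (`H618.RkData`) and its
output for all subspaces, from the calculi of the points `Ec` and of the hyperplanes `F`, both on
`ℙ k (Fin (N + 1) → k)` (hyperplanes in coordinates); general source group `E`, target given by a
homomorphism `q` modulo scalars.
-/

set_option linter.all false

open TopologicalSpace Topology Module Projectivization ContinuousLinearMap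
open scoped Matrix LinearAlgebra.Projectivization

namespace Vale.Agent.P092.H644.RkI

open Vale.Agent.P092.H100.Gr Vale.Agent.P092.H644.Gr3 Vale.Agent.P092.H644.PGr
open Vale.Agent.P092.H644.RkG Vale.Agent.P092.H618
open Vale.Agent.P092.H789 (PG)
open Vale.Agent.P092.RC (Cm Moore)
open Vale.Agent.P092.H76.Pur (NIS)

/-! ### Homomorphisms modulo scalars -/

section qp

variable {k : Type} [NontriviallyNormedField k] {n : ℕ} {Γ : Type} [Group Γ]

theorem mk_eq_of_smul {g h : Matrix.SpecialLinearGroup (Fin n) k} {c : k}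
    (hc : g.1 = c • h.1) : (QuotientGroup.mk (Matrix.SpecialLinearGroup.toGL g) : PG k n) =
      QuotientGroup.mk (Matrix.SpecialLinearGroup.toGL h) := by
  have h1 : (1 : Matrix (Fin n) (Fin n) k) = c • (g⁻¹ * h).1 := by
    rw [Matrix.SpecialLinearGroup.coe_mul, ← mul_smul_comm, ← hc,
      ← Matrix.SpecialLinearGroup.coe_mul, inv_mul_cancel, Matrix.SpecialLinearGroup.coe_one]
  rw [QuotientGroup.eq, ← map_inv, ← map_mul,
    Matrix.GeneralLinearGroup.mem_center_iff_val_mem_range_scalar]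
  by_cases h0 : c = 0
  · refine ⟨1, ?_⟩
    have h2 : (1 : Matrix (Fin n) (Fin n) k) = 0 := by rw [h1, h0, zero_smul]
    have h3 : ∀ A : Matrix (Fin n) (Fin n) k, A = 0 := fun A => by
      rw [← one_mul A, h2, zero_mul]
    exact (h3 _).trans (h3 _).symm
  · refine ⟨c⁻¹, ?_⟩
    change _ = (g⁻¹ * h).1
    rw [Matrix.scalar_apply, ← Matrix.smul_one_eq_diagonal, h1, smul_smul, inv_mul_cancel₀ h0,
      one_smul]

/-- the homomorphism to `PGL` -/
noncomputable def qP (q : Γ → Matrix.SpecialLinearGroup (Fin n) k)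
    (hq : ∀ γ γ', ∃ c : k, (q (γ * γ')).1 = c • (q γ * q γ').1) : Γ →* PG k n :=
  MonoidHom.mk' (fun γ => QuotientGroup.mk (Matrix.SpecialLinearGroup.toGL (q γ))) (by
    intro γ γ'
    obtain ⟨c, hc⟩ := hq γ γ'
    rw [mk_eq_of_smul hc, map_mul]
    rfl)

variable {q : Γ → Matrix.SpecialLinearGroup (Fin n) k}
  {hq : ∀ γ γ', ∃ c : k, (q (γ * γ')).1 = c • (q γ * q γ').1}

theorem qP_apply (γ : Γ) : qP q hq γ = QuotientGroup.mk (Matrix.SpecialLinearGroup.toGL (q γ)) :=
  rfl

theorem qP_smul {j : ℕ} (γ : Γ) (L : Gr k (Fin n) j) : qP q hq γ • L = q γ • L := rfl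

theorem qP_inv_smul {j : ℕ} (γ : Γ) (L : Gr k (Fin n) j) : qP q hq γ⁻¹ • L = (q γ)⁻¹ • L := by
  rw [map_inv, inv_smul_eq_iff, qP_smul, smul_inv_smul]

end qp

/-! ### Transport of supports and of calculi -/

section tr

theorem tsupport_homeo {A B : Type} [TopologicalSpace A] [TopologicalSpace B] (e : A ≃ₜ B)
    (f : C(B, ℂ)) : tsupport (f.comp (e : C(A, B))) = e ⁻¹' tsupport f :=
  tsupport_comp_eq_preimage (f : B → ℂ) e

variable {K : Type} [NormedAddCommGroup K] [InnerProductSpace ℂ K] [CompleteSpace K]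

/-- transport of a calculus along a homeomorphism -/
noncomputable def trC {A B : Type} [TopologicalSpace A] [TopologicalSpace B] (e : A ≃ₜ B)
    (φ : C(A, ℂ) →⋆ₐ[ℂ] (K →L[ℂ] K)) : C(B, ℂ) →⋆ₐ[ℂ] (K →L[ℂ] K) :=
  φ.comp (ContinuousMap.compStarAlgHom' ℂ ℂ (e : C(A, B)))

theorem trC_apply {A B : Type} [TopologicalSpace A] [TopologicalSpace B] (e : A ≃ₜ B)
    (φ : C(A, ℂ) →⋆ₐ[ℂ] (K →L[ℂ] K)) (f : C(B, ℂ)) : trC e φ f = φ (f.comp (e : C(A, B))) := rfl

theorem nis_homeo {Γ A B : Type} [TopologicalSpace A] [CompactSpace A] [TopologicalSpace B]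
    [CompactSpace B] (e : A ≃ₜ B) {act : Γ → A → A} {act' : Γ → B → B}
    (h : ∀ γ x, act' γ (e x) = e (act γ x)) (hA : NIS act) : NIS act' := by
  intro φ h1 h2 h3
  let r : C(A, ℂ) →ₗ[ℂ] C(B, ℂ) :=
    { toFun := fun f => f.comp (e.symm : C(B, A))
      map_add' := fun _ _ => rfl
      map_smul' := fun _ _ => rfl }
  refine hA (φ ∘ₗ r) (fun f => h1 (r f)) h2 fun γ f f' hf => ?_
  refine h3 γ (r f) (r f') fun y => ?_
  obtain ⟨x, rfl⟩ := e.surjective y
  change f' (e.symm (act' γ (e x))) = f (e.symm (e x))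
  rw [h, e.symm_apply_apply, e.symm_apply_apply, hf]

end tr

/-! ### The block -/

section main

open Vale.Agent.P092.SN

variable {k : Type} [NontriviallyNormedField k] [ProperSpace k]

/-- translation of the target hyperplanes, in coordinates -/
theorem hyp_ct {N : ℕ} (g : RC.GG k N) (x : RC.YY k N) :
    hyp ((RC.ct g)⁻¹ • x) = g⁻¹ • hyp x := by
  rw [← map_inv]
  exact hyp_smul_sl rfl x

/-- **[N-RKI]** the calculi of all subspaces, from those of the points and of the hyperplanes. -/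
theorem rkI (hR : H618.RkStmt) [MeasurableSpace k] {μ : MeasureTheory.Measure k} :
    SN.RkIStmt k μ := by
  intro N E Γ K _ _ _ _ _ _ w ι a a' π lam W Ω m q Z Ec F h hW
  have hN : 1 ≤ N := le_trans (by norm_num) h.adm.hN
  letI actΓ : ∀ d, MulAction Γ (Y0 k N d) := fun d => MulAction.compHom _ (qP q h.ph)
  haveI csΓ : ∀ d, ContinuousConstSMul Γ (Y0 k N d) := fun d =>
    ⟨fun γ => continuous_const_smul (qP q h.ph γ)⟩
  letI actE : ∀ j, MulAction E (S0 k N j) := fun j => MulAction.compHom _ a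
  let pY : RC.YY k N ≃ₜ Y0 k N 1 := p1H.trans (idY k N 1)
  let hY : RC.YY k N ≃ₜ Y0 k N N := hypH.trans (idY k N N)
  let lamY : S0 k N N → (C(Y0 k N N, ℂ) →⋆ₐ[ℂ] (K →L[ℂ] K)) :=
    fun M => trC hY (F (hypH.symm M))
  let betY : S0 k N 1 → (C(Y0 k N 1, ℂ) →⋆ₐ[ℂ] (K →L[ℂ] K)) :=
    fun c => trC pY (Ec (p1H.symm c))
  -- actions
  have hΓ : ∀ (γ : Γ) (d : ℕ) (L : Gr k (Fin (N + 1)) d),
      γ⁻¹ • (idY k N d L) = idY k N d ((q γ)⁻¹ • L) := fun γ d L => qP_inv_smul γ L
  have hM : ∀ (e : E) (M : S0 k N N), hypH.symm (e • M) = a' e • hypH.symm M := by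
    intro e M
    apply hypH.injective
    refine (hypH.apply_symm_apply _).trans ?_
    change a e • M = hyp (a' e • hypH.symm M)
    rw [hyp_of_ort (h.adm.ort e)]
    exact congrArg (fun X : Gr k (Fin (N + 1)) N => a e • X) (hypH.apply_symm_apply M).symm
  have hS : ∀ (g : RC.GG k N) (j : ℕ) (X : Gr k (Fin (N + 1)) j),
      (ι g • (show S0 k N j from X) : S0 k N j) = (show S0 k N j from g • X) := by
    intro g j X
    change a (ι g) • X = _
    rw [← can_smul]
    exact smul_eq_of_pts (fun x => by rw [h.adm.comp, can_smul_pt]) _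
  have stab : ∀ (e : E) (j : ℕ) (X : S0 k N j), e • X = X ↔ SN.Prv a X.1 e := fun e j X =>
    stab_iff (a e) (show Gr k (Fin (N + 1)) j from X)
  have hinc : ∀ {c : S0 k N 1} {M : S0 k N N}, R0 1 N c M →
      SN.inc (p1H.symm c) (hypH.symm M) := by
    intro c M hcM
    refine p1_le_hyp.1 ?_
    have e1 : p1 (p1H.symm c) = c := p1H.apply_symm_apply c
    have e2 : hyp (hypH.symm M) = M := hypH.apply_symm_apply M
    rw [e1, e2]
    exact hcM
  have hD : RkData N I0 R0 Γ E lam π W lamY betY := by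
    refine H411.rkData_of h.pic N hN tgeo0 (sgeo0 hN a ι h.adm.comp)
      (fun γ i j L L' hL => smul_le_pg.2 hL) (fun j h1 h2 X => ?_)
      (fun j h1 h2 A B hAB hX => ?_) (fun d h1 h2 => ?_) (fun M f => h.f.cm _ _)
      (fun γ M f => ?_) (fun e M f => ?_) (fun c T hT M hcM u f hn => ?_)
    · have h3 := h.adm.stb X.1 X.1
      have h4 : {e : E | e • X = X} = {e | SN.Prv a X.1 e ∧ SN.Prv a X.1 e} := by
        ext e
        rw [Set.mem_setOf_eq, Set.mem_setOf_eq, stab, and_self]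
      rw [h4]
      exact h3
    · have h3 := h.adm.stb A.1 B.1
      have h4 : {e : E | e • A = A ∧ e • B = B} = {e | SN.Prv a A.1 e ∧ SN.Prv a B.1 e} := by
        ext e
        rw [Set.mem_setOf_eq, Set.mem_setOf_eq, stab, stab]
      rw [h4]
      exact h3
    · exact nis_homeo (idY k N d) (act := fun γ L => q γ • L) (fun γ L => rfl) (h.nis d h1 h2)
    · have h3 := h.f.cov γ (hypH.symm M) (f.comp (hY : C(RC.YY k N, Y0 k N N)))
      refine h3.trans ?_
      change F (hypH.symm M) _ = F (hypH.symm M) _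
      congr 1
      ext x
      change f (idY k N N (hyp ((RC.ct (q γ))⁻¹ • x))) = f (γ⁻¹ • idY k N N (hyp x))
      rw [hyp_ct, hΓ]
    · have h3 := h.f.pcov e (hypH.symm M) (f.comp (hY : C(RC.YY k N, Y0 k N N)))
      refine h3.trans ?_
      change _ = F (hypH.symm (e • M)) _
      rw [hM]
      rfl
    · refine hW (p1H.symm c) T ?_ (hypH.symm M) (hinc hcM)
        (u.comp (pY : C(RC.YY k N, Y0 k N 1))) (f.comp (hY : C(RC.YY k N, Y0 k N N))) ?_
      · refine StarAlgebra.adjoin_mono ?_ hT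
        rintro _ ⟨M', f', hM', rfl⟩
        exact ⟨hypH.symm M', f'.comp (hY : C(RC.YY k N, Y0 k N N)), hinc hM', rfl⟩
      · intro x hx l hl hxl
        rw [tsupport_homeo] at hx hl
        exact hn _ hx _ hl (p1_le_hyp.2 hxl)
  obtain ⟨G', hG'⟩ := hR K N (Y0 k N) I0 (S0 k N) R0 Γ E lam π W lamY betY
    (fun j X => ⟨idY k N j X⟩) hD
  refine ⟨fun j X => trC (idY k N j).symm (G' j X), ?_, ?_, ?_, ?_, ?_, ?_, ?_⟩
  · refine ⟨fun i j h1 h2 h3 X X' hX f f' => hG'.com i j h1 h2 h3 X X' hX _ _,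
      fun i j h1 h2 h3 X X' hX u f hn => ?_, fun c c' hne ξ hξ => ?_,
      fun j h1 h2 A B hne hX ξ hξ => ?_⟩
    · refine hG'.inc i j h1 h2 h3 X X' hX
        (u.comp ((idY k N i).symm : C(Y0 k N i, Gr k (Fin (N + 1)) i)))
        (f.comp ((idY k N j).symm : C(Y0 k N j, Gr k (Fin (N + 1)) j))) fun x hx y hy hxy => ?_
      rw [tsupport_homeo] at hx hy
      exact hn _ hx _ hy hxy
    · refine h.e.agr (p1H.symm c) (p1H.symm c') (fun he => hne (p1H.symm.injective he)) ξ
        fun f => ?_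
      let s1 : Gr k (Fin (N + 1)) 1 ≃ₜ RC.YY k N := p1H.symm
      have h3 := hξ (f.comp (s1 : C(Gr k (Fin (N + 1)) 1, RC.YY k N)))
      have h4 : ∀ c : Gr k (Fin (N + 1)) 1, trC (idY k N 1).symm (G' 1 c)
          (f.comp (s1 : C(Gr k (Fin (N + 1)) 1, RC.YY k N))) = Ec (p1H.symm c) f := by
        intro c
        refine (hG'.pnt c _).trans ?_
        change Ec (p1H.symm c) _ = _
        congr 1
        ext x
        change f (p1H.symm (p1H x)) = f x
        rw [Homeomorph.symm_apply_apply]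
      rw [h4, h4] at h3
      exact h3
    · refine hG'.agr j h1 h2 A B hne hX ξ fun f => ?_
      exact hξ (f.comp (idY k N (j + 1) : C(Gr k (Fin (N + 1)) (j + 1), Y0 k N (j + 1))))
  · intro c f
    refine (hG'.pnt (p1 c) _).trans ?_
    change Ec (p1H.symm (p1H c)) _ = _
    rw [Homeomorph.symm_apply_apply]
    rfl
  · intro M f
    refine (hG'.top (hyp M) _).trans ?_
    change F (hypH.symm (hypH M)) _ = _
    rw [Homeomorph.symm_apply_apply]
    rfl
  · intro j h1 h2 X f w hw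
    exact (hG'.covW j h1 h2 X w hw _).symm
  · intro j h1 h2 γ X f
    refine (hG'.covG j h1 h2 X γ _).trans ?_
    change G' j X _ = G' j X _
    congr 1
    ext y
    change f ((idY k N j).symm (γ⁻¹ • y)) = f ((q γ)⁻¹ • (idY k N j).symm y)
    rw [show γ⁻¹ • y = _ from hΓ γ j ((idY k N j).symm y)]
    rfl
  · intro j h1 h2 g X f
    refine (hG'.covπ j h1 h2 X (ι g) _).trans ?_
    change _ = G' j (show S0 k N j from g • X) _
    rw [← hS]
  · intro j h1 h2 X T hT f
    refine hG'.cen j h1 h2 X T (fun M f' hM' => ?_) _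
    refine hT (hypH.symm M) (f'.comp (hY : C(RC.YY k N, Y0 k N N))) ?_
    have e2 : hyp (hypH.symm M) = M := hypH.apply_symm_apply M
    rw [e2]
    exact hM'

end main

end Vale.Agent.P092.H644.RkI
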