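import Vale.Agent.P092.H644.RkI
import Vale.Agent.P092.H560.RkMain

/-!
P092, TEAM N, block [N-RKI] (helper644): `SN.RkIStmt` without hypotheses.
-/

set_option linter.all false

namespace Vale.Agent.P092.H644

/-- **[N-RKI]**, every local field. -/
theorem rkIStmt {k : Type} [NontriviallyNormedField k] [ProperSpace k] [MeasurableSpace k]
    {μ : MeasureTheory.Measure k} : SN.RkIStmt k μ :=
  RkI.rkI H560.rkStmt

end Vale.Agent.P092.H644
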