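import Vale.Agent.P092.H644.PGr
import Vale.Agent.P092.H644.SGeo
import Vale.Agent.P092.H618.RkDefs

/-!
P092, TEAM N, block [N-RKI], part 1 (helper644): the geometry of the rank count for the
Grassmannians `Gr k (Fin (N + 1)) j` (all `j`, no cap), target and source; a source group `E`
which acts through `a : E →* PGL`.
-/

set_option linter.all false

open TopologicalSpace Topology Module Projectivization ContinuousLinearMap
open scoped Matrix LinearAlgebra.Projectivization

namespace Vale.Agent.P092.H644.RkG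

open Vale.Agent.P092.H100.Gr Vale.Agent.P092.H644.Gr3 Vale.Agent.P092.H644.PGr
open Vale.Agent.P092.H789 (PG)

/-! ### Subspaces and their points -/

section pts

variable {k : Type} [NontriviallyNormedField k] {n j : ℕ}

/-- a subspace is determined by its points -/
theorem le_of_pts {X Y : Submodule k (Fin n → k)}
    (h : ∀ x : ℙ k (Fin n → k), x.submodule ≤ X → x.submodule ≤ Y) : X ≤ Y := by
  intro v hv
  by_cases h0 : v = 0
  · rw [h0]; exact Y.zero_mem
  · have h1 := h (mk k v h0)
    rw [submodule_mk, Submodule.span_singleton_le_iff_mem,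
      Submodule.span_singleton_le_iff_mem] at h1
    exact h1 hv

theorem smul_pt_le (g : PG k n) (x : ℙ k (Fin n → k)) (X : Gr k (Fin n) j) :
    (g • x).submodule ≤ (g • X).1 ↔ x.submodule ≤ X.1 := by
  change (p1 (g • x)).1 ≤ _ ↔ (p1 x).1 ≤ _
  rw [p1_smul_pg]
  exact smul_le_pg

/-- the stabiliser of a subspace, in terms of its points -/
theorem stab_iff (g : PG k n) (X : Gr k (Fin n) j) :
    g • X = X ↔ ∀ x : ℙ k (Fin n → k), x.submodule ≤ X.1 ↔ (g • x).submodule ≤ X.1 := by
  constructor
  · intro h x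
    conv_rhs => rw [← h]
    exact (smul_pt_le g x X).symm
  · intro h
    refine eq_of_le (le_of_pts fun x hx => ?_)
    have h1 : g • (g⁻¹ • x) = x := smul_inv_smul g x
    rw [← h1] at hx ⊢
    exact (h _).1 ((smul_pt_le g _ X).1 hx)

/-- elements with the same action on the points have the same action on the subspaces -/
theorem smul_eq_of_pts {g g' : PG k n} (h : ∀ x : ℙ k (Fin n → k), g • x = g' • x)
    (X : Gr k (Fin n) j) : g • X = g' • X := by
  refine eq_of_le (le_of_pts fun x hx => ?_)
  have h1 : g • (g⁻¹ • x) = x := smul_inv_smul g x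
  rw [← h1] at hx ⊢
  rw [h, smul_pt_le]
  exact (smul_pt_le g _ X).1 hx

variable {m : ℕ}

/-- a dual action on the hyperplanes (in coordinates) is determined by the incidence -/
theorem hyp_of_ort {g g' : PG k (m + 1)}
    (h : ∀ x l : ℙ k (Fin (m + 1) → k), orthogonal (g • x) (g' • l) ↔ orthogonal x l)
    (l : ℙ k (Fin (m + 1) → k)) : hyp (g' • l) = g • hyp l := by
  refine eq_of_le (le_of_pts fun x hx => ?_)
  have h1 : g • (g⁻¹ • x) = x := smul_inv_smul g x
  rw [← h1] at hx ⊢
  rw [smul_pt_le]
  exact p1_le_hyp.2 ((h _ _).1 (p1_le_hyp.1 hx))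

end pts

/-! ### The target -/

section tgt

variable (k : Type) [NontriviallyNormedField k] [ProperSpace k] (N : ℕ)

/-- the `d`-dimensional subspaces as a compact metric space -/
def Y0 (d : ℕ) : Type := Gr k (Fin (N + 1)) d

noncomputable instance metY0 (d : ℕ) : MetricSpace (Y0 k N d) :=
  metrizableSpaceMetric (Gr k (Fin (N + 1)) d)

instance cptY0 (d : ℕ) : CompactSpace (Y0 k N d) :=
  inferInstanceAs (CompactSpace (Gr k (Fin (N + 1)) d))

/-- the identity -/
def idY (d : ℕ) : Gr k (Fin (N + 1)) d ≃ₜ Y0 k N d := Homeomorph.refl (Gr k (Fin (N + 1)) d)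

variable {k N}

theorem idY_val {d : ℕ} (L : Gr k (Fin (N + 1)) d) : (idY k N d L).1 = L.1 := rfl

/-- inclusion -/
def I0 (i j : ℕ) (L : Y0 k N i) (L' : Y0 k N j) : Prop := L.1 ≤ L'.1

theorem tgeo0 : H618.TGeo N (Y0 k N) I0 where
  closed i j := incG_closed (k := k) (ι := Fin (N + 1)) (i := i) (j := j)
  refl i L L' := ⟨fun h => eq_of_le h, fun h => le_of_eq (congrArg Subtype.val h)⟩
  span := by
    intro i j hi hij hj L L' hLL
    obtain ⟨s, hs, hev⟩ := H68.Gras.span_at (k := k) rfl (L : Gr k (Fin (N + 1)) i) L' hLL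
    refine ⟨s, hs, ?_⟩
    filter_upwards [hev] with q hq M h1 h2
    exact hq.2.trans (sup_le h1 h2)

/-- the action of `PGL` on `Y0` -/
noncomputable instance actY0 (d : ℕ) : MulAction (PG k (N + 1)) (Y0 k N d) :=
  inferInstanceAs (MulAction (PG k (N + 1)) (Gr k (Fin (N + 1)) d))

instance csY0 (d : ℕ) : ContinuousSMul (PG k (N + 1)) (Y0 k N d) :=
  inferInstanceAs (ContinuousSMul (PG k (N + 1)) (Gr k (Fin (N + 1)) d))

end tgt

/-! ### The source -/

section src

variable (k : Type) [NontriviallyNormedField k] (N : ℕ)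

/-- the source subspaces -/
def S0 (j : ℕ) : Type := Gr k (Fin (N + 1)) j

noncomputable instance actS0 (j : ℕ) : MulAction (PG k (N + 1)) (S0 k N j) :=
  inferInstanceAs (MulAction (PG k (N + 1)) (Gr k (Fin (N + 1)) j))

variable {k N}

/-- inclusion -/
def R0 (i j : ℕ) (X : S0 k N i) (X' : S0 k N j) : Prop := X.1 ≤ X'.1

/-- the geometry of the source, for a group which acts through `a` and contains an image of
`SL` -/
theorem sgeo0 [ProperSpace k] (hN : 1 ≤ N) {E : Type} [Group E] (a : E →* PG k (N + 1))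
    (ι : Matrix.SpecialLinearGroup (Fin (N + 1)) k → E)
    (hι : ∀ g (x : ℙ k (Fin (N + 1) → k)), a (ι g) • x = g • x) :
    letI : ∀ j, MulAction E (S0 k N j) := fun j => MulAction.compHom _ a
    H618.SGeo N (S0 k N) R0 E := by
  letI : ∀ j, MulAction E (S0 k N j) := fun j => MulAction.compHom _ a
  have hs : ∀ (g) (j) (X : S0 k N j), ι g • X = (g • (show Gr k (Fin (N + 1)) j from X) :) := by
    intro g j X
    change a (ι g) • (show Gr k (Fin (N + 1)) j from X) = _
    rw [← can_smul]
    exact smul_eq_of_pts (fun x => by rw [hι, can_smul_pt]) _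
  exact
    { refl := fun i X X' => ⟨fun h => eq_of_le h, fun h => le_of_eq (congrArg Subtype.val h)⟩
      trans := fun i j l X Y Z h h' => le_trans (α := Submodule k (Fin (N + 1) → k)) h h'
      pnt := fun j h1 h2 X => SG.pnt (k := k) h1 X
      hyp := fun j h1 h2 X => SG.exists_ge (k := k) h2 (by rw [Fintype.card_fin]; omega) X
      act := fun g i j X X' h => smul_le_pg.2 h
      tra := fun j h1 h2 X X' => by
        obtain ⟨g, hg⟩ := H289.exists_sl (X := X.1) (X' := X'.1) (X.2.trans X'.2.symm)
        exact ⟨ι g, (hs g j X).trans (Subtype.ext hg)⟩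
      con := fun j h1 h2 X X' => SG.con (k := k) rfl X X'
      con2 := fun j h1 h2 P P' => SG.con2 (k := k) rfl P P'
      tra2 := fun j h1 h2 P Y P' Y' hne hne' hX hX' => by
        have key : ∀ P Y : S0 k N (j + 1), P ≠ Y → (∃ X : S0 k N j, R0 j (j + 1) X P ∧
            R0 j (j + 1) X Y) → finrank k ↥(P.1 ⊓ Y.1) = j := by
          rintro P Y hne ⟨X, hXP, hXY⟩
          have h3 : finrank k X.1 = j := X.2
          have h4 : finrank k P.1 = j + 1 := P.2
          have h5 : finrank k X.1 ≤ finrank k ↥(P.1 ⊓ Y.1) :=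
            Submodule.finrank_mono (le_inf hXP hXY)
          have h6 : P.1 ⊓ Y.1 < P.1 := by
            refine lt_of_le_of_ne inf_le_left fun he => hne ?_
            exact eq_of_le (k := k) (ι := Fin (N + 1)) (inf_eq_left.1 he)
          have h7 := Submodule.finrank_lt_finrank_of_lt h6
          omega
        obtain ⟨g, hg, hg'⟩ := H289.exists_sl_pair (X := P.1) (X' := P'.1) (Y := Y.1)
          (Y' := Y'.1) (P.2.trans P'.2.symm) (Y.2.trans Y'.2.symm)
          ((key P Y hne hX).trans (key P' Y' hne' hX').symm)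
        exact ⟨ι g, (hs g _ P).trans (Subtype.ext hg), (hs g _ Y).trans (Subtype.ext hg')⟩ }

end src

end Vale.Agent.P092.H644.RkG
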